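import Vale.Agent.P318.Final

/-!
P318 (Q2): the integrality gap of the Goemans-Linial relaxation of uniform sparsest cut for
capacities which are invariant under a finite abelian group of exponent `m` is at most
`π ⌊log₂ m⌋`, whatever the order of the group; there is no gap for exponent two.
-/

namespace Vale.Agent.Results.P318.AbelianGap

open Vale.Agent.P318

theorem result (G : Type) [AddCommGroup G] [Fintype G] [DecidableEq G] [Nontrivial G] (m : ℕ)
    (hm0 : 0 < m) (hm : ∀ g : G, m • g = 0) (c : G → G → ℝ) (h0 : ∀ i j, 0 ≤ c i j)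
    (hs : ∀ i j, c i j = c j i) (hd : ∀ i, c i i = 0)
    (hc : ∀ t i j, c (i + t) (j + t) = c i j) :
    glVal c ≤ Phi c ∧ Phi c ≤ Real.pi * (Nat.log 2 m : ℝ) * glVal c ∧
      (m = 2 → Phi c = glVal c) := by
  refine ⟨gl_le_phi h0 hs hd, gap hm0 hm h0 hc, ?_⟩
  rintro rfl
  exact gap_two hm h0 hs hd hc

end Vale.Agent.Results.P318.AbelianGap
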