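import Vale.Agent.P318.Cuts

/-!
P318: for capacities on a finite abelian group of exponent `m` which are translation invariant,
a family of at most `m |G|` cuts, which depends only on the group and which comes from the
homomorphisms to `ZMod m`, always contains a cut within `π ⌊log₂ m⌋` of the Goemans-Linial value;
for `m = 2` it contains an optimal cut, of ratio exactly the Goemans-Linial value.
-/

namespace Vale.Agent.Results.P318.CharacterCuts

open Finset Vale.Agent.P318

theorem result (G : Type) [AddCommGroup G] [Fintype G] [DecidableEq G] [Nontrivial G] (m : ℕ)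
    (hm0 : 0 < m) (hm : ∀ g : G, m • g = 0) :
    ∃ 𝒮 : Finset (Finset G), #𝒮 ≤ m * Fintype.card G ∧
      (∀ S ∈ 𝒮, ∃ (k : G →+ ZMod m) (u : ZMod m), ∀ g, g ∈ S ↔ (k g + u).val < m / 2) ∧
      ∀ c : G → G → ℝ, (∀ i j, 0 ≤ c i j) → (∀ i j, c i j = c j i) → (∀ i, c i i = 0) →
        (∀ t i j, c (i + t) (j + t) = c i j) →
        glVal c ≤ Phi c ∧ ∃ S ∈ 𝒮, S.Nonempty ∧ Sᶜ.Nonempty ∧
          cutRatio c S ≤ Real.pi * (Nat.log 2 m : ℝ) * glVal c ∧
          (m = 2 → cutRatio c S = Phi c ∧ Phi c = glVal c) := by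
  have : NeZero m := ⟨hm0.ne'⟩
  obtain ⟨𝒮, hcard, hmem⟩ := family (G := G) (m := m)
  refine ⟨𝒮, hcard, ?_, ?_⟩
  · intro S hS
    obtain ⟨k, u, rfl⟩ := (hmem S).1 hS
    refine ⟨k, u, fun g => ?_⟩
    simp only [half, mem_filter, mem_univ, true_and]
  · intro c h0 hs hd hc
    have hgl := gl_le_phi h0 hs hd
    refine ⟨hgl, ?_⟩
    by_cases h2 : m = 2
    · subst h2
      obtain ⟨k, u, h3, h4, h5⟩ := charCut_two hm h0 hc
      have hphi : Phi c ≤ cutRatio c (half k u) := by
        refine csInf_le ⟨0, ?_⟩ ⟨half k u, h3, h4, rfl⟩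
        rintro r ⟨S, _, _, rfl⟩
        exact Mn.cutRatio_nonneg h0 S
      refine ⟨half k u, (hmem _).2 ⟨k, u, rfl⟩, h3, h4, ?_, fun _ =>
        ⟨le_antisymm (h5.trans hgl) hphi, le_antisymm (hphi.trans h5) hgl⟩⟩
      have h6 := Ch.gl_nonneg h0
      have h7 : (Nat.log 2 2 : ℝ) = 1 := by
        have : Nat.log 2 2 = 1 := by decide
        exact_mod_cast this
      rw [h7, mul_one]
      have h8 := mul_le_mul_of_nonneg_right (by linarith [Real.pi_gt_three] : (1 : ℝ) ≤ Real.pi) h6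
      linarith
    · obtain ⟨k, u, h3, h4, h5⟩ := charCut hm0 hm h0 hc
      exact ⟨half k u, (hmem _).2 ⟨k, u, rfl⟩, h3, h4, h5, fun h => absurd h h2⟩

end Vale.Agent.Results.P318.CharacterCuts
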